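import Mathlib
import Vale.Agent.P042.R2.H757.Spec

set_option autoImplicit false

/-!
P042.MultiplicativeStatistics: the exponent one half is sharp for squares (helper807).
-/

namespace Vale.Agent.P042.R2.H807

open Finset Vale.Agent.P042.H757

/-- the residue class three modulo four -/
noncomputable def PS (x : ℕ) : Finset ℕ := (Icc 1 x).filter (fun p => p.Prime ∧ p % 4 = 3)

/-- the squares of these primes -/
noncomputable def AS (N : ℕ) : Finset ℕ := (PS (Nat.sqrt N)).image (fun p => p ^ 2)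

lemma mem_AS {N n : ℕ} : n ∈ AS N ↔ ∃ p, (1 ≤ p ∧ p ≤ Nat.sqrt N) ∧ (p.Prime ∧ p % 4 = 3) ∧
    p ^ 2 = n := by
  unfold AS PS
  simp only [mem_image, mem_filter, mem_Icc]
  constructor
  · rintro ⟨p, ⟨h1, h2⟩, h3⟩
    exact ⟨p, h1, h2, h3⟩
  · rintro ⟨p, h1, h2, h3⟩
    exact ⟨p, ⟨h1, h2⟩, h3⟩

lemma AS_sub (N : ℕ) : AS N ⊆ Icc 1 N := by
  intro n hn
  obtain ⟨p, ⟨h1, h2⟩, -, rfl⟩ := mem_AS.1 hn
  rw [mem_Icc]
  refine ⟨Nat.one_le_pow _ _ h1, ?_⟩
  calc p ^ 2 ≤ Nat.sqrt N ^ 2 := Nat.pow_le_pow_left h2 2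
    _ ≤ N := Nat.sqrt_le' N

lemma card_AS (N : ℕ) : (AS N).card = (PS (Nat.sqrt N)).card := by
  unfold AS
  refine card_image_of_injective _ ?_
  intro a b h
  exact Nat.pow_left_injective (by norm_num) h

lemma AS_exch (N : ℕ) {r : ℕ} (col : ℕ → Fin r) : Exch col N (AS N) := by
  intro u p q hp hq _ hpu _ hup _
  exfalso
  obtain ⟨s, -, ⟨hs, -⟩, h⟩ := mem_AS.1 hup
  have h1 : p ∣ s ^ 2 := h ▸ Dvd.intro_left u rfl
  have h2 : p ∣ s := hp.dvd_of_dvd_pow h1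
  have h3 : p = s := (Nat.prime_dvd_prime_iff_eq hp hs).1 h2
  subst h3
  apply hpu
  have h4 : p * p = u * p := by rw [← h]; ring
  have h5 : p = u := Nat.eq_of_mul_eq_mul_right hp.pos h4
  exact h5 ▸ dvd_rfl

lemma dvd_of_sq {p a b : ℕ} (hp : p.Prime) (h3 : p % 4 = 3) (h : p ^ 2 = a ^ 2 + b ^ 2) : p ∣ b := by
  have := Fact.mk hp
  by_contra hb
  have h1 : ((a : ZMod p)) ^ 2 + (b : ZMod p) ^ 2 = 0 := by
    have : ((p ^ 2 : ℕ) : ZMod p) = ((a ^ 2 + b ^ 2 : ℕ) : ZMod p) := by rw [h]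
    push_cast at this
    rw [← this]
    simp
  have hb0 : (b : ZMod p) ≠ 0 := by
    intro h0
    exact hb ((ZMod.natCast_eq_zero_iff b p).1 h0)
  have hsq : IsSquare (-1 : ZMod p) := by
    refine ⟨(a : ZMod p) / b, ?_⟩
    field_simp
    linear_combination -h1
  exact (ZMod.exists_sq_eq_neg_one_iff.1 hsq) h3

lemma AS_free (N : ℕ) : MonoFree 1 2 (AS N) := by
  intro x hx y hy m hm hxy
  obtain ⟨s, ⟨hs1, -⟩, ⟨hs, -⟩, rfl⟩ := mem_AS.1 hx
  obtain ⟨p, -, ⟨hp, h3⟩, rfl⟩ := mem_AS.1 hy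
  rw [one_mul] at hxy
  have h1 : p ∣ m := dvd_of_sq hp h3 hxy
  have h2 : p ^ 2 ≤ m ^ 2 := Nat.pow_le_pow_left (Nat.le_of_dvd (by omega) h1) 2
  have h4 : 1 ≤ s ^ 2 := Nat.one_le_pow _ _ hs1
  omega

lemma rich3 (hRes : StRes) : ∃ c : ℝ, c < 1 ∧ ∃ x0 : ℕ, ∀ x : ℕ, x0 ≤ x →
    (x : ℝ) * Real.exp (-(Real.log x) ^ c) ≤ ((PS x).card : ℝ) := by
  rcases hRes 4 (by norm_num) 3 with h | h
  · exfalso
    have hinf := Nat.infinite_setOfPred_prime_and_modEq (q := 4) (a := 3) (by norm_num) (by decide)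
    refine hinf (h.subset ?_)
    intro p hp
    refine ⟨hp.1, ?_⟩
    have : p % 4 = 3 := hp.2
    ext
    simpa using this
  · obtain ⟨c, hc, x0, hx⟩ := h
    refine ⟨c, hc, x0, fun x hx0 => (hx x hx0).trans ?_⟩
    unfold PS
    refine le_of_eq ?_
    congr 2
    ext p
    simp only [mem_filter, mem_Icc, and_congr_right_iff]
    intro _ _
    constructor
    · intro h
      have := congrArg Fin.val h
      simpa using this
    · intro h
      ext
      simpa using h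

lemma free_one : MonoFree 1 2 ({1} : Finset ℕ) := by
  intro x hx y hy m hm h
  rw [mem_singleton] at hx hy
  subst hx hy
  have : 1 ≤ m ^ 2 := Nat.one_le_pow _ _ hm
  omega

lemma exch_one (N : ℕ) {r : ℕ} (col : ℕ → Fin r) : Exch col N ({1} : Finset ℕ) := by
  intro u p q hp hq _ hpu _ hup _
  exfalso
  rw [mem_singleton] at hup
  have := Nat.eq_one_of_mul_eq_one_left hup
  exact hp.one_lt.ne' this

lemma large {c ε : ℝ} (hc : c < 1) (hε : 0 < ε) : ∃ t0 : ℝ, ∀ t : ℝ, t0 ≤ t → t ^ c ≤ ε * t := by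
  have h1 : Filter.Tendsto (fun t : ℝ => t ^ (-(1 - c))) Filter.atTop (nhds 0) :=
    tendsto_rpow_neg_atTop (by linarith)
  have h2 := h1.eventually (gt_mem_nhds hε)
  rw [Filter.eventually_atTop] at h2
  obtain ⟨a, ha⟩ := h2
  refine ⟨max a 1, fun t ht => ?_⟩
  have h3 := ha t ((le_max_left _ _).trans ht)
  have ht1 : 1 ≤ t := (le_max_right _ _).trans ht
  have ht0 : 0 < t := by linarith
  have e : t ^ c = t ^ (-(1 - c)) * t := by
    rw [← Real.rpow_add_one ht0.ne']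
    congr 1
    ring
  rw [e]
  exact mul_le_mul_of_nonneg_right h3.le ht0.le

/-- **The exponent one half is sharp for squares**, for all colourings at once. -/
theorem lower (hRes : StRes) : ∀ ε : ℝ, 0 < ε → ∃ c : ℝ, 0 < c ∧ ∀ N : ℕ, 1 ≤ N →
    ∃ A : Finset ℕ, A ⊆ Icc 1 N ∧ (∀ (r : ℕ) (col : ℕ → Fin r), Exch col N A) ∧ MonoFree 1 2 A ∧
      c * (N : ℝ) ^ ((1 : ℝ) / 2 - ε) ≤ (A.card : ℝ) := by
  intro ε0 hε0
  set ε : ℝ := min ε0 (1 / 2) with hεd
  have hε : 0 < ε := lt_min hε0 (by norm_num)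
  have hε1 : ε ≤ 1 / 2 := min_le_right _ _
  have hεε : ε ≤ ε0 := min_le_left _ _
  obtain ⟨c, hc, x0, hx⟩ := rich3 hRes
  obtain ⟨t0, ht⟩ := large hc hε
  -- threshold for x
  obtain ⟨x1, hx1⟩ : ∃ x1 : ℕ, ∀ x : ℕ, x1 ≤ x → t0 ≤ Real.log x := by
    have := (Real.tendsto_log_atTop.comp tendsto_natCast_atTop_atTop).eventually_ge_atTop t0
    rw [Filter.eventually_atTop] at this
    exact this
  set X : ℕ := max (max x0 x1) 1 with hX
  set N0 : ℕ := X ^ 2 with hN0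
  have hN01 : (1 : ℝ) ≤ N0 := by
    have : 1 ≤ X := le_max_right _ _
    rw [hN0]
    exact_mod_cast Nat.one_le_pow _ _ this
  refine ⟨min (1 / 2) (1 / N0), by positivity, fun N hN => ?_⟩
  have hN1 : (1 : ℝ) ≤ N := by exact_mod_cast hN
  have hmono : (N : ℝ) ^ ((1 : ℝ) / 2 - ε0) ≤ (N : ℝ) ^ ((1 : ℝ) / 2 - ε) :=
    Real.rpow_le_rpow_of_exponent_le hN1 (by linarith)
  by_cases hcase : N ≤ N0
  · refine ⟨{1}, ?_, fun r col => exch_one N col, free_one, ?_⟩
    · intro n hn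
      rw [mem_singleton] at hn
      subst hn
      rw [mem_Icc]
      omega
    · rw [card_singleton, Nat.cast_one]
      have h1 : (N : ℝ) ^ ((1 : ℝ) / 2 - ε) ≤ N := by
        calc (N : ℝ) ^ ((1 : ℝ) / 2 - ε) ≤ (N : ℝ) ^ (1 : ℝ) :=
              Real.rpow_le_rpow_of_exponent_le hN1 (by linarith)
          _ = N := Real.rpow_one _
      have h2 : (N : ℝ) ≤ N0 := by exact_mod_cast hcase
      calc min (1 / 2) (1 / (N0 : ℝ)) * (N : ℝ) ^ ((1 : ℝ) / 2 - ε0)
          ≤ (1 / N0) * N0 := by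
            refine mul_le_mul (min_le_right _ _) (hmono.trans (h1.trans h2)) (by positivity)
              (by positivity)
        _ = 1 := by field_simp
  · have hNN : N0 < N := not_le.1 hcase
    refine ⟨AS N, AS_sub N, fun r col => AS_exch N col, AS_free N, ?_⟩
    set x : ℕ := Nat.sqrt N with hxd
    have hXx : X ≤ x := by
      rw [hxd, Nat.le_sqrt']
      exact hNN.le
    have hx0 : x0 ≤ x := (le_max_left _ _).trans ((le_max_left _ _).trans hXx)
    have hx1' : x1 ≤ x := (le_max_right _ _).trans ((le_max_left _ _).trans hXx)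
    have hx1'' : 1 ≤ x := (le_max_right _ _).trans hXx
    have hxr : (1 : ℝ) ≤ x := by exact_mod_cast hx1''
    have hx0r : (0 : ℝ) < x := by linarith
    have h1 := hx x hx0
    have h2 := ht _ (hx1 x hx1')
    have h3 : (x : ℝ) ^ (1 - ε) ≤ (x : ℝ) * Real.exp (-(Real.log x) ^ c) := by
      have e1 : (x : ℝ) ^ (1 - ε) = x * Real.exp (-(ε * Real.log x)) := by
        rw [Real.rpow_def_of_pos hx0r, mul_sub, Real.exp_sub, mul_one, Real.exp_log hx0r,
          Real.exp_neg, mul_comm (Real.log x) ε]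
        rfl
      rw [e1]
      refine mul_le_mul_of_nonneg_left (Real.exp_le_exp.2 ?_) hx0r.le
      linarith
    have h4 : (N : ℝ) ^ ((1 : ℝ) / 2) ≤ 2 * x := by
      have : N ≤ (2 * x) ^ 2 := by
        have h5 : N < (x + 1) ^ 2 := by
          rw [hxd]
          exact Nat.lt_succ_sqrt' N
        have h6 : x + 1 ≤ 2 * x := by omega
        exact h5.le.trans (Nat.pow_le_pow_left h6 2)
      rw [← Real.sqrt_eq_rpow]
      refine Real.sqrt_le_iff.2 ⟨by positivity, ?_⟩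
      exact_mod_cast this
    rw [card_AS]
    refine le_trans ?_ (h3.trans h1)
    have h7 : (N : ℝ) ^ ((1 : ℝ) / 2 - ε) ≤ 2 * (x : ℝ) ^ (1 - ε) := by
      have h8 : (N : ℝ) ^ ((1 : ℝ) / 2 - ε) ≤ (N : ℝ) ^ ((1 : ℝ) / 2 * (1 - ε)) :=
        Real.rpow_le_rpow_of_exponent_le hN1 (by linarith)
      refine h8.trans ?_
      rw [Real.rpow_mul (by positivity)]
      calc ((N : ℝ) ^ ((1 : ℝ) / 2)) ^ (1 - ε) ≤ (2 * (x : ℝ)) ^ (1 - ε) :=
            Real.rpow_le_rpow (by positivity) h4 (by linarith)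
        _ = (2 : ℝ) ^ (1 - ε) * (x : ℝ) ^ (1 - ε) := Real.mul_rpow (by norm_num) hx0r.le
        _ ≤ 2 * (x : ℝ) ^ (1 - ε) := by
            refine mul_le_mul_of_nonneg_right ?_ (by positivity)
            calc (2 : ℝ) ^ (1 - ε) ≤ (2 : ℝ) ^ (1 : ℝ) :=
                  Real.rpow_le_rpow_of_exponent_le (by norm_num) (by linarith)
              _ = 2 := Real.rpow_one _
    calc min (1 / 2) (1 / (N0 : ℝ)) * (N : ℝ) ^ ((1 : ℝ) / 2 - ε0)
        ≤ (1 / 2) * (2 * (x : ℝ) ^ (1 - ε)) := by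
          refine mul_le_mul (min_le_left _ _) (hmono.trans h7) (by positivity) (by norm_num)
      _ = (x : ℝ) ^ (1 - ε) := by ring

end Vale.Agent.P042.R2.H807
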