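import Mathlib
import Vale.Agent.P042.R2.H757.SpecU

set_option autoImplicit false

/-!
P042.MultiplicativeStatistics, row THIN (helper807).
-/

namespace Vale.Agent.P042.R2.H807

open Finset Vale.Agent.P042.H757.U

lemma fiber_le {C0 η θ : ℝ} (hθ1 : θ ≤ 1) {T : Set ℕ} (hT : Thin C0 η T) (N j : ℕ) :
    open Classical in
    ∑ p ∈ ((Icc 1 N).filter (fun p => p.Prime ∧ p ∈ T)).filter (fun p => Nat.log 2 p = j),
      (p : ℝ) ^ (θ - 1) ≤ (C0 * (2 : ℝ) ^ (1 - η)) * ((2 : ℝ) ^ (θ - η)) ^ j := by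
  classical
  set F := ((Icc 1 N).filter (fun p => p.Prime ∧ p ∈ T)).filter (fun p => Nat.log 2 p = j) with hF
  have hterm : ∀ p ∈ F, (p : ℝ) ^ (θ - 1) ≤ ((2 : ℝ) ^ j) ^ (θ - 1) := by
    intro p hp
    rw [hF, mem_filter, mem_filter] at hp
    obtain ⟨⟨-, hpp, -⟩, hlog⟩ := hp
    have h1 : 2 ^ j ≤ p := by
      rw [← hlog]
      exact Nat.pow_log_le_self 2 hpp.ne_zero
    have h2 : (2 : ℝ) ^ j ≤ p := by exact_mod_cast h1
    exact Real.rpow_le_rpow_of_nonpos (by positivity) h2 (by linarith)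
  have hcard : (F.card : ℝ) ≤ C0 * ((2 : ℝ) ^ (j + 1)) ^ (1 - η) := by
    have h1 := hT (2 ^ (j + 1)) Nat.one_le_two_pow
    rw [ncard_eq] at h1
    have h2 : F.card ≤ ((Icc 1 (2 ^ (j + 1))).filter (fun p => p.Prime ∧ p ∈ T)).card := by
      refine card_le_card fun p hp => ?_
      rw [hF, mem_filter, mem_filter] at hp
      obtain ⟨⟨-, hpp, hpT⟩, hlog⟩ := hp
      rw [mem_filter, mem_Icc]
      refine ⟨⟨hpp.one_lt.le, ?_⟩, hpp, hpT⟩
      have := Nat.lt_pow_succ_log_self (b := 2) (by norm_num) p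
      rw [hlog] at this
      exact this.le
    have h3 : (F.card : ℝ) ≤
        (((Icc 1 (2 ^ (j + 1))).filter (fun p => p.Prime ∧ p ∈ T)).card : ℝ) := by
      exact_mod_cast h2
    refine h3.trans (h1.trans (le_of_eq ?_))
    push_cast
    rfl
  calc ∑ p ∈ F, (p : ℝ) ^ (θ - 1) ≤ ∑ _p ∈ F, ((2 : ℝ) ^ j) ^ (θ - 1) := sum_le_sum hterm
    _ = (F.card : ℝ) * ((2 : ℝ) ^ j) ^ (θ - 1) := by rw [sum_const, nsmul_eq_mul]
    _ ≤ (C0 * ((2 : ℝ) ^ (j + 1)) ^ (1 - η)) * ((2 : ℝ) ^ j) ^ (θ - 1) :=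
        mul_le_mul_of_nonneg_right hcard (by positivity)
    _ = (C0 * (2 : ℝ) ^ (1 - η)) * ((2 : ℝ) ^ (θ - η)) ^ j := by
        have e1 : ((2 : ℝ) ^ (j + 1)) ^ (1 - η) = (2 : ℝ) ^ (((j : ℝ) + 1) * (1 - η)) := by
          rw [← Real.rpow_natCast, ← Real.rpow_mul (by norm_num)]
          push_cast
          rfl
        have e2 : ((2 : ℝ) ^ j) ^ (θ - 1) = (2 : ℝ) ^ ((j : ℝ) * (θ - 1)) := by
          rw [← Real.rpow_natCast, ← Real.rpow_mul (by norm_num)]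
        have e3 : ((2 : ℝ) ^ (θ - η)) ^ j = (2 : ℝ) ^ ((θ - η) * j) := by
          rw [← Real.rpow_natCast, ← Real.rpow_mul (by norm_num)]
        rw [e1, e2, e3, mul_assoc, mul_assoc, ← Real.rpow_add (by norm_num),
          ← Real.rpow_add (by norm_num)]
        congr 2
        ring

/-- Row THIN. -/
theorem rowThin : StThin := by
  intro C0 η θ hC0 hη hθ0 hθη
  have hr0 : (0 : ℝ) < (2 : ℝ) ^ (θ - η) := by positivity
  have hr1 : (2 : ℝ) ^ (θ - η) < 1 := Real.rpow_lt_one_of_one_lt_of_neg (by norm_num) (by linarith)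
  set r : ℝ := (2 : ℝ) ^ (θ - η) with hr
  set c : ℝ := C0 * (2 : ℝ) ^ (1 - η) with hc
  have hc0 : 0 ≤ c := by positivity
  refine ⟨c * (1 - r)⁻¹, mul_nonneg hc0 (inv_nonneg.2 (by linarith)), fun T hT N => ?_⟩
  classical
  set F := (Icc 1 N).filter (fun p => p.Prime ∧ p ∈ T) with hF
  have hmaps : ∀ p ∈ F, Nat.log 2 p ∈ range (Nat.log 2 N + 1) := by
    intro p hp
    rw [hF, mem_filter, mem_Icc] at hp
    rw [mem_range]
    have := Nat.log_mono_right (b := 2) hp.1.2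
    omega
  have hsum : ∑ p ∈ F, (p : ℝ) ^ (θ - 1) = ∑ j ∈ range (Nat.log 2 N + 1),
      ∑ p ∈ F.filter (fun p => Nat.log 2 p = j), (p : ℝ) ^ (θ - 1) :=
    (sum_fiberwise_of_maps_to hmaps _).symm
  have hgeo : ∑ j ∈ range (Nat.log 2 N + 1), r ^ j ≤ (1 - r)⁻¹ := by
    have h1 := (summable_geometric_of_lt_one hr0.le hr1).sum_le_tsum (range (Nat.log 2 N + 1))
      (fun j _ => pow_nonneg hr0.le j)
    rwa [tsum_geometric_of_lt_one hr0.le hr1] at h1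
  have hmain : ∑ p ∈ F, (p : ℝ) ^ (θ - 1) ≤ c * (1 - r)⁻¹ := by
    rw [hsum]
    calc ∑ j ∈ range (Nat.log 2 N + 1),
          ∑ p ∈ F.filter (fun p => Nat.log 2 p = j), (p : ℝ) ^ (θ - 1)
        ≤ ∑ j ∈ range (Nat.log 2 N + 1), c * r ^ j := by
          refine sum_le_sum fun j _ => ?_
          have h := fiber_le (θ := θ) (by linarith) hT N j
          convert h using 2
      _ = c * ∑ j ∈ range (Nat.log 2 N + 1), r ^ j := by rw [mul_sum]
      _ ≤ c * (1 - r)⁻¹ := mul_le_mul_of_nonneg_left hgeo hc0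
  convert hmain using 2

end Vale.Agent.P042.R2.H807
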