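import Mathlib
import Vale.Agent.P042.R2.H757.SpecR

set_option autoImplicit false

/-!
Row RESU: the residue classes modulo `q` outside a thin set of primes stay rich, with constants
which depend only on the modulus and on the thinness.
-/

namespace Vale.Agent.P042.H807R

open Finset Filter Topology
open Vale.Agent.P042.H757 Vale.Agent.P042.H757.U

/-- a larger power wins -/
lemma tendsto_diff (c d b : ℝ) (hc : 0 < c) (hcd : c < d) (hb : 0 < b) :
    Tendsto (fun L : ℝ => L ^ c - b * L ^ d) atTop atBot := by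
  have h1 : Tendsto (fun L : ℝ => L ^ c) atTop atTop := tendsto_rpow_atTop hc
  have h2 : Tendsto (fun L : ℝ => L ^ (d - c)) atTop atTop := tendsto_rpow_atTop (by linarith)
  have h3 : Tendsto (fun L : ℝ => b * L ^ (d - c)) atTop atTop := h2.const_mul_atTop hb
  have h4 : Tendsto (fun L : ℝ => 1 - b * L ^ (d - c)) atTop atBot :=
    tendsto_atBot_add_const_left _ 1 (tendsto_neg_atTop_atBot.comp h3)
  have h5 := h1.atTop_mul_atBot₀ h4
  refine h5.congr' ?_
  filter_upwards [eventually_gt_atTop (0 : ℝ)] with L hL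
  have : L ^ d = L ^ c * L ^ (d - c) := by
    rw [← Real.rpow_add hL]
    congr 1
    ring
  rw [this]
  ring

/-- the three error terms, all `x` large -/
lemma eventually_ineq (c0 C0 η : ℝ) (q : ℕ) (hc0 : 1 / 2 ≤ c0) (hc1 : c0 < 1) (hη : 0 < η) :
    ∃ x1 : ℕ, ∀ x : ℕ, x1 ≤ x → 1 ≤ x ∧ 1 ≤ Real.log x ∧
      (x : ℝ) * Real.exp (-(Real.log x) ^ ((1 + c0) / 2)) + C0 * (x : ℝ) ^ (1 - η) + q ≤
        (x : ℝ) * Real.exp (-(Real.log x) ^ c0) := by
  have hc : 0 < c0 := by linarith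
  have t1 := tendsto_diff c0 ((1 + c0) / 2) 1 hc (by linarith) one_pos
  have t2 := tendsto_diff c0 1 η hc hc1 hη
  have t3 := tendsto_diff c0 1 1 hc hc1 one_pos
  have e1 := Real.tendsto_exp_atBot.comp t1
  have e2 := (Real.tendsto_exp_atBot.comp t2).const_mul C0
  have e3 := (Real.tendsto_exp_atBot.comp t3).const_mul (q : ℝ)
  have e4 := (e1.add e2).add e3
  have e5 : ∀ᶠ L : ℝ in atTop, Real.exp (L ^ c0 - 1 * L ^ ((1 + c0) / 2)) +
      C0 * Real.exp (L ^ c0 - η * L ^ (1 : ℝ)) + q * Real.exp (L ^ c0 - 1 * L ^ (1 : ℝ)) < 1 := by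
    have hz : (0 + C0 * 0 + (q : ℝ) * 0 : ℝ) < 1 := by simp
    exact e4.eventually (gt_mem_nhds hz)
  have hlog : Tendsto (fun x : ℕ => Real.log (x : ℝ)) atTop atTop :=
    Real.tendsto_log_atTop.comp tendsto_natCast_atTop_atTop
  have e6 := (hlog.eventually e5).and ((hlog.eventually (eventually_ge_atTop (1 : ℝ))).and
    (eventually_ge_atTop (1 : ℕ)))
  obtain ⟨x1, hx1⟩ := eventually_atTop.mp e6
  refine ⟨x1, fun x hx => ?_⟩
  obtain ⟨h1, h2, h3⟩ := hx1 x hx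
  refine ⟨h3, h2, ?_⟩
  have hx0 : (0 : ℝ) < x := by exact_mod_cast h3
  set L := Real.log (x : ℝ) with hL
  have hE : (0 : ℝ) < x * Real.exp (-L ^ c0) := mul_pos hx0 (Real.exp_pos _)
  have hxe : ∀ A : ℝ, (x : ℝ) * Real.exp A = Real.exp (L + A) := fun A => by
    rw [Real.exp_add, hL, Real.exp_log hx0]
  have a1 : (x : ℝ) * Real.exp (-L ^ ((1 + c0) / 2)) =
      (x * Real.exp (-L ^ c0)) * Real.exp (L ^ c0 - 1 * L ^ ((1 + c0) / 2)) := by
    rw [mul_assoc, ← Real.exp_add]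
    congr 2
    ring
  have a2 : C0 * (x : ℝ) ^ (1 - η) =
      (x * Real.exp (-L ^ c0)) * (C0 * Real.exp (L ^ c0 - η * L ^ (1 : ℝ))) := by
    have : (x : ℝ) ^ (1 - η) = Real.exp (L * (1 - η)) := by
      rw [Real.rpow_def_of_pos hx0]
    rw [this, Real.rpow_one]
    have h : (x : ℝ) * Real.exp (-L ^ c0) * (C0 * Real.exp (L ^ c0 - η * L)) =
        C0 * (x * (Real.exp (-L ^ c0) * Real.exp (L ^ c0 - η * L))) := by ring
    rw [h, ← Real.exp_add, hxe]
    congr 2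
    ring
  have a3 : (q : ℝ) =
      (x * Real.exp (-L ^ c0)) * (q * Real.exp (L ^ c0 - 1 * L ^ (1 : ℝ))) := by
    rw [Real.rpow_one]
    have h : (x : ℝ) * Real.exp (-L ^ c0) * (q * Real.exp (L ^ c0 - 1 * L)) =
        q * (x * (Real.exp (-L ^ c0) * Real.exp (L ^ c0 - 1 * L))) := by ring
    rw [h, ← Real.exp_add, hxe]
    have : L + (-L ^ c0 + (L ^ c0 - 1 * L)) = 0 := by ring
    rw [this, Real.exp_zero, mul_one]
  rw [a1, a2]
  have a4 : (x : ℝ) * Real.exp (-L ^ c0) * Real.exp (L ^ c0 - 1 * L ^ ((1 + c0) / 2)) +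
      x * Real.exp (-L ^ c0) * (C0 * Real.exp (L ^ c0 - η * L ^ (1 : ℝ))) + q =
      (x * Real.exp (-L ^ c0)) * (Real.exp (L ^ c0 - 1 * L ^ ((1 + c0) / 2)) +
      C0 * Real.exp (L ^ c0 - η * L ^ (1 : ℝ)) + q * Real.exp (L ^ c0 - 1 * L ^ (1 : ℝ))) := by
    rw [mul_add, mul_add, ← a3]
  rw [a4]
  calc _ ≤ (x * Real.exp (-L ^ c0)) * 1 := mul_le_mul_of_nonneg_left h1.le hE.le
    _ = _ := mul_one _

/-- the class of a prime which does not divide the modulus has infinitely many primes -/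
lemma not_few (q : ℕ) (hq : 0 < q) (p : ℕ) (hp : p.Prime) (hpq : ¬ p ∣ q) :
    ¬ Few (fun l => (⟨l % q, Nat.mod_lt l hq⟩ : Fin q)) ⟨p % q, Nat.mod_lt p hq⟩ := by
  intro h
  have hc : p.Coprime q := (Nat.Prime.coprime_iff_not_dvd hp).mpr hpq
  have hi := Nat.infinite_setOfPred_prime_and_modEq hq.ne' hc
  refine hi (h.subset ?_)
  rintro l ⟨h1, h2⟩
  refine ⟨h1, ?_⟩
  simp only [Fin.mk.injEq]
  exact h2

/-- **Row RESU.** -/
theorem rowResU (h : StRes) : StResU := by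
  classical
  intro q hq C0 η hC0 hη hη1
  -- the constants of the rich classes
  have hch : ∀ v : Fin q, ∃ c : ℝ, c < 1 ∧ ∃ x0 : ℕ,
      (¬ Few (fun p => (⟨p % q, Nat.mod_lt p hq⟩ : Fin q)) v → ∀ x : ℕ, x0 ≤ x →
        (x : ℝ) * Real.exp (-(Real.log x) ^ c) ≤
          (((Icc 1 x).filter (fun p => p.Prime ∧
            (⟨p % q, Nat.mod_lt p hq⟩ : Fin q) = v)).card : ℝ)) := by
    intro v
    rcases h q hq v with hF | ⟨c, hc, x0, hx⟩
    · exact ⟨0, one_pos, 0, fun hn => absurd hF hn⟩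
    · exact ⟨c, hc, x0, fun _ x hxx => by
        refine (hx x hxx).trans (le_of_eq ?_)
        congr⟩
  choose c hc x0 hx0 using hch
  obtain ⟨vm, -, hvm⟩ := Finset.exists_max_image (Finset.univ : Finset (Fin q)) c
    ⟨⟨0, hq⟩, Finset.mem_univ _⟩
  set c0 : ℝ := max (1 / 2) (c vm) with hc0
  have hc0h : 1 / 2 ≤ c0 := le_max_left _ _
  have hc01 : c0 < 1 := max_lt (by norm_num) (hc vm)
  have hcv : ∀ v, c v ≤ c0 := fun v => (hvm v (Finset.mem_univ v)).trans (le_max_right _ _)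
  obtain ⟨x1, hx1⟩ := eventually_ineq c0 C0 η q hc0h hc01 hη
  refine ⟨(1 + c0) / 2, by linarith, max x1 (Finset.univ.sup x0), ?_⟩
  intro T hT p hp hpq x hx
  set v : Fin q := ⟨p % q, Nat.mod_lt p hq⟩ with hv
  have hxx1 : x1 ≤ x := (le_max_left _ _).trans hx
  have hxv : x0 v ≤ x :=
    (Finset.le_sup (f := x0) (Finset.mem_univ v)).trans ((le_max_right _ _).trans hx)
  obtain ⟨h1x, hL1, hineq⟩ := hx1 x hxx1
  have hA := hx0 v (not_few q hq p hp hpq) x hxv
  have hx0' : (0 : ℝ) ≤ x := Nat.cast_nonneg x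
  have hmono : (x : ℝ) * Real.exp (-(Real.log x) ^ c0) ≤
      (x : ℝ) * Real.exp (-(Real.log x) ^ (c v)) := by
    apply mul_le_mul_of_nonneg_left _ hx0'
    apply Real.exp_le_exp.mpr
    have := Real.rpow_le_rpow_of_exponent_le hL1 (hcv v)
    linarith
  have hTx := hT x h1x
  rw [ncard_eq] at hTx ⊢
  -- the counting
  have hsub : (Icc 1 x).filter (fun l => l.Prime ∧ (⟨l % q, Nat.mod_lt l hq⟩ : Fin q) = v) ⊆
      ((Icc 1 x).filter (fun l => l.Prime ∧
        l ∈ cls (T ∪ {l | l ∣ q}) (fun n => n % q) p) ∪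
      (Icc 1 x).filter (fun l => l.Prime ∧ l ∈ T)) ∪ Icc 1 q := by
    intro l hl
    rw [Finset.mem_filter] at hl
    obtain ⟨hlx, hlp, hlv⟩ := hl
    have hlv' : l % q = p % q := by
      rw [hv] at hlv
      simpa only [Fin.mk.injEq] using hlv
    rw [Finset.mem_union, Finset.mem_union]
    by_cases hlT : l ∈ T
    · exact Or.inl (Or.inr (Finset.mem_filter.mpr ⟨hlx, hlp, hlT⟩))
    · by_cases hlq : l ∣ q
      · exact Or.inr (Finset.mem_Icc.mpr ⟨hlp.one_lt.le, Nat.le_of_dvd hq hlq⟩)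
      · refine Or.inl (Or.inl (Finset.mem_filter.mpr ⟨hlx, hlp, ?_, hlv'⟩))
        rintro (h1 | h1)
        · exact hlT h1
        · exact hlq h1
  have hcard := (Finset.card_le_card hsub).trans ((Finset.card_union_le _ _).trans
    (Nat.add_le_add_right (Finset.card_union_le _ _) _))
  rw [Nat.card_Icc, Nat.add_sub_cancel] at hcard
  have hcard' : ((((Icc 1 x).filter (fun l => l.Prime ∧
      (⟨l % q, Nat.mod_lt l hq⟩ : Fin q) = v)).card : ℕ) : ℝ) ≤
      ((((Icc 1 x).filter (fun l => l.Prime ∧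
        l ∈ cls (T ∪ {l | l ∣ q}) (fun n => n % q) p)).card : ℕ) : ℝ) +
      ((((Icc 1 x).filter (fun l => l.Prime ∧ l ∈ T)).card : ℕ) : ℝ) + (q : ℝ) := by
    exact_mod_cast hcard
  linarith

end Vale.Agent.P042.H807R
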